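import Vale.Agent.P038.GoodSet

namespace Vale.Agent.Results.P038.EntropyCriterion

open Vale.Agent.P038

/-- Weighted second-neighbourhood theorem from a skew certificate, and its consequence for
sets all of whose non-adjacent pairs are good. -/
theorem result :
    (∀ {V : Type} [Fintype V] (A : V → V → Prop) (Q : Finset V), Q.Nonempty →
      ∀ (σ : V → V → ℝ), (∀ x y, σ x y = -σ y x) →
      ∀ (ρ : V → V → ℝ), (∀ u x, 0 ≤ ρ u x) →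
      (∀ u, (∀ y ∈ Q, ¬ A y u) ∨
        ((∃ x ∈ Q, 0 < ρ u x) ∧ ∀ x ∈ Q, ∀ y ∈ Q,
          σ x y * (ρ u x - ρ u y) ≤ ρ u x * score A y u + ρ u y * score A x u)) →
      ∀ w : V → ℝ, (∀ u, 0 ≤ w u) →
      ∃ v ∈ Q, (∑ᶠ u ∈ {u | A v u}, w u) ≤ ∑ᶠ u ∈ {u | DistTwo A v u}, w u) ∧
    (∀ {V : Type} [Fintype V] (A : V → V → Prop), (∀ x, ¬ A x x) → (∀ x y, A x y → ¬ A y x) →
      ∀ Q : Finset V, Q.Nonempty →
      (∀ x ∈ Q, ∀ y ∈ Q, x ≠ y → ¬ A x y → ¬ A y x → Covered A x y ∨ Covered A y x) →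
      (∀ u, (∃ y ∈ Q, A y u) → ∃ x ∈ Q, FarFrom A x u) →
      ∀ w : V → ℝ, (∀ u, 0 ≤ w u) →
      ∃ v ∈ Q, (∑ᶠ u ∈ {u | A v u}, w u) ≤ ∑ᶠ u ∈ {u | DistTwo A v u}, w u) :=
  ⟨fun A Q hQ σ hσ ρ hρ hc w hw => criterion_sums A Q hQ σ hσ ρ hρ hc w hw,
    fun A hirr hor Q hQ hgood hfar w hw => goodSet_seymour A hirr hor Q hQ hgood hfar w hw⟩

end Vale.Agent.Results.P038.EntropyCriterion
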